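import Vale.Agent.P181.H75.RDefs

set_option autoImplicit false

/-!
# P181, [R1]: exchanging a kept and a dissolved neighbour
-/

namespace Vale.Agent.P181.H75

open Finset

variable {a k q b : ℕ}

lemma sg_comp (f : Fin a → Fin a) (τ : Equiv.Perm (Fin a)) :
    sg (f ∘ τ) = ((Equiv.Perm.sign τ : ℤˣ) : ℤ) * sg f := by
  classical
  by_cases h : Function.Bijective f
  · have h' : Function.Bijective (f ∘ τ) := h.comp τ.bijective
    have h1 : Equiv.ofBijective (f ∘ τ) h' = (Equiv.ofBijective f h) * τ := by
      ext x
      rfl
    unfold sg
    rw [dif_pos h', dif_pos h, h1, map_mul, Units.val_mul, mul_comm]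
  · have h' : ¬ Function.Bijective (f ∘ τ) := by
      intro h'
      apply h
      have h2 : f = (f ∘ τ) ∘ τ.symm := by
        funext x
        simp
      rw [h2]
      exact h'.comp τ.symm.bijective
    unfold sg
    rw [dif_neg h', dif_neg h, mul_zero]

lemma sg_comp_swap (f : Fin a → Fin a) {i j : Fin a} (hij : i ≠ j) :
    sg (f ∘ Equiv.swap i j) = - sg f := by
  rw [sg_comp, Equiv.Perm.sign_swap hij]
  simp

lemma sg_eq_zero {f : Fin a → Fin a} {i j : Fin a} (hij : i ≠ j) (h : f i = f j) : sg f = 0 := by
  unfold sg
  rw [dif_neg]
  intro h'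
  exact hij (h'.1 h)

/-- The new permutations. -/
def mv (rot : Equiv.Perm (Fin a)) (r : Fin k) :
    (Fin k → Equiv.Perm (Fin a)) ≃ (Fin k → Equiv.Perm (Fin a)) :=
  Equiv.piCongrRight (fun t => if t = r then Equiv.mulLeft rot⁻¹ else Equiv.refl _)

lemma mv_same (rot : Equiv.Perm (Fin a)) (r : Fin k) (σ : Fin k → Equiv.Perm (Fin a))
    (i : Fin a) : (mv rot r σ r).symm i = (σ r).symm (rot i) := by
  have h : mv rot r σ r = rot⁻¹ * σ r := by simp [mv]
  rw [h, ← Equiv.Perm.inv_def, mul_inv_rev, inv_inv]
  rfl

lemma mv_other (rot : Equiv.Perm (Fin a)) {r t : Fin k} (h : t ≠ r)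
    (σ : Fin k → Equiv.Perm (Fin a)) : mv rot r σ t = σ t := by
  simp only [mv, Equiv.piCongrRight_apply, Pi.map_apply, if_neg h, Equiv.refl_apply]

/-- The distance from column `c` to particle `s`. -/
def dd (b s c : ℕ) : ℕ := if c ≤ s then s - c else s + b - c

lemma dd_lt {b s c : ℕ} (hs : s < b) (hc : c < b) : dd b s c < b := by
  unfold dd
  split_ifs <;> omega

lemma i_of_s {b s c i : ℕ} (hc : c < b) (hi : i < b) (h : ad b c i = s) : i = dd b s c := by
  unfold ad at h
  unfold dd
  split_ifs at * <;> omega

lemma i_of_t {b s c i : ℕ} (hc : c < b) (hi : i < b) (hs : s + 1 < b) (h : ad b c i = s + 1) :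
    i = dd b s c + 1 ∨ (i = 0 ∧ dd b s c + 1 = b) := by
  unfold ad at h
  unfold dd
  split_ifs at * <;> omega

lemma ad_of_dd {b s c : ℕ} (hc : c < b) (hs : s < b) : ad b c (dd b s c) = s := by
  unfold ad dd
  split_ifs <;> omega

lemma ad_of_dd1 {b s c : ℕ} (hc : c < b) (hs : s + 1 < b) (h : dd b s c + 1 < b) :
    ad b c (dd b s c + 1) = s + 1 := by
  unfold dd at h
  unfold ad dd
  split_ifs at * <;> omega

lemma prod_dd {s : ℕ} (hs : s < b) (g : ℕ → ℤ) :
    ∏ c : Fin b, g (dd b s c) = ∏ d : Fin b, g d := by
  have hinv : Function.Involutive (fun c : Fin b => (⟨dd b s c, dd_lt hs c.2⟩ : Fin b)) := by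
    intro c
    apply Fin.ext
    show dd b s (dd b s c) = c
    have := c.2
    unfold dd
    split_ifs <;> omega
  rw [← Equiv.prod_comp hinv.toPerm (fun d : Fin b => g d)]
  rfl

lemma prod_neg_one (ha : 0 < a) (hab : a < b) :
    ∏ d : Fin b, (if (d : ℕ) + 1 < a then (-1 : ℤ) else 1) = (-1) ^ (a - 1) := by
  rw [Fin.prod_univ_eq_prod_range (fun d => if d + 1 < a then (-1 : ℤ) else 1) b,
    Finset.prod_ite, Finset.prod_const_one, mul_one, Finset.prod_const]
  congr 1
  have h : (range b).filter (fun d => d + 1 < a) = range (a - 1) := by
    ext d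
    simp only [mem_filter, mem_range]
    omega
  rw [h, card_range]

theorem r1 : R1 := by
  intro a k q b hab ha s hs E r pj h1 h2
  classical
  obtain ⟨n, rfl⟩ : ∃ n, a = n + 1 := ⟨a - 1, by omega⟩
  have hsb : s < b := by omega
  set sF : Fin b := ⟨s, hsb⟩ with hsF
  set tF : Fin b := ⟨s + 1, hs⟩ with htF
  have hst : sF ≠ tF := by
    intro h
    have := congrArg Fin.val h
    simp only [hsF, htF] at this
    omega
  set rot : Equiv.Perm (Fin (n + 1)) := finRotate (n + 1) with hrot
  set E' : Rl k (n + 1) q ≃ Fin b := E.trans (Equiv.swap sF tF) with hE'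
  have hrot1 : ∀ i : Fin (n + 1), (i : ℕ) + 1 < n + 1 → ((rot i : Fin (n + 1)) : ℕ) = i + 1 := by
    intro i hi
    rw [hrot]
    apply coe_finRotate_of_ne_last
    intro h
    rw [h, Fin.val_last] at hi
    omega
  have hrot2 : ∀ i : Fin (n + 1), (i : ℕ) + 1 = n + 1 → rot i = 0 := by
    intro i hi
    have : i = Fin.last n := by
      apply Fin.ext
      rw [Fin.val_last]
      omega
    rw [this, hrot, finRotate_last]
  -- values
  have vS : ∀ σ i, val E σ sF i = pj.1 := by
    intro σ i
    unfold val
    rw [h1]
    rfl
  have vT : ∀ σ i, val E σ tF i = (σ r).symm i := by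
    intro σ i
    unfold val
    rw [h2]
    rfl
  have vS' : ∀ σ i, val E' (mv rot r σ) sF i = (σ r).symm (rot i) := by
    intro σ i
    unfold val
    rw [hE', Equiv.symm_trans_apply, Equiv.symm_swap, Equiv.swap_apply_left, h2]
    exact mv_same rot r σ i
  have vT' : ∀ σ i, val E' (mv rot r σ) tF i = pj.1 := by
    intro σ i
    unfold val
    rw [hE', Equiv.symm_trans_apply, Equiv.symm_swap, Equiv.swap_apply_right, h1]
    rfl
  have vO : ∀ σ i (x : Fin b), x ≠ sF → x ≠ tF → val E' (mv rot r σ) x i = val E σ x i := by
    intro σ i x hx1 hx2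
    unfold val
    rw [hE', Equiv.symm_trans_apply, Equiv.symm_swap, Equiv.swap_apply_of_ne_of_ne hx1 hx2]
    rcases h : E.symm x with t | t
    · have ht : t ≠ r := by
        intro ht
        apply hx2
        rw [ht, ← h2] at h
        exact E.symm.injective h
      simp only [Sum.elim_inl]
      rw [mv_other rot ht]
    · rfl
  have key : ∀ σ, W hab.le E' (mv rot r σ) = (-1) ^ n * W hab.le E σ := by
    intro σ
    by_cases hp : (σ r).symm 0 = pj.1
    · have hcol : ∀ c : Fin b, sg (col hab.le E' (mv rot r σ) c) =
          (if dd b s c + 1 < n + 1 then (-1 : ℤ) else 1) * sg (col hab.le E σ c) := by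
        intro c
        have hc := c.2
        split_ifs with hd
        · have hd' : dd b s c < n + 1 := by omega
          have hne : (⟨dd b s c, hd'⟩ : Fin (n + 1)) ≠ ⟨dd b s c + 1, hd⟩ := by
            intro h
            have := congrArg Fin.val h
            simp only at this
            omega
          have had1 : ad b c (dd b s c) = s := ad_of_dd hc hsb
          have had2 : ad b c (dd b s c + 1) = s + 1 := ad_of_dd1 hc hs (by omega)
          have hcomp : col hab.le E' (mv rot r σ) c =
              col hab.le E σ c ∘ Equiv.swap (⟨dd b s c, hd'⟩ : Fin (n + 1)) ⟨dd b s c + 1, hd⟩ := by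
            funext i
            rw [Function.comp_apply]
            by_cases hi1 : i = ⟨dd b s c, hd'⟩
            · rw [hi1, Equiv.swap_apply_left]
              unfold col
              have e1 : (⟨ad b c (dd b s c), ad_lt c.2 (by omega)⟩ : Fin b) = sF :=
                Fin.ext had1
              have e2 : (⟨ad b c (dd b s c + 1), ad_lt c.2 (by omega)⟩ : Fin b) = tF :=
                Fin.ext had2
              simp only [e1, e2]
              rw [vS', vT]
              congr 1
              apply Fin.ext
              rw [hrot1 _ hd]
            · by_cases hi2 : i = ⟨dd b s c + 1, hd⟩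
              · rw [hi2, Equiv.swap_apply_right]
                unfold col
                have e1 : (⟨ad b c (dd b s c), ad_lt c.2 (by omega)⟩ : Fin b) = sF :=
                  Fin.ext had1
                have e2 : (⟨ad b c (dd b s c + 1), ad_lt c.2 (by omega)⟩ : Fin b) = tF :=
                  Fin.ext had2
                simp only [e1, e2]
                rw [vT', vS]
              · rw [Equiv.swap_apply_of_ne_of_ne hi1 hi2]
                unfold col
                apply vO
                · intro h
                  apply hi1
                  have h3 : ad b c i = s := congrArg Fin.val h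
                  apply Fin.ext
                  exact i_of_s hc (by have := i.2; omega) h3
                · intro h
                  apply hi2
                  have h3 : ad b c i = s + 1 := congrArg Fin.val h
                  apply Fin.ext
                  rcases i_of_t hc (by have := i.2; omega) hs h3 with h4 | h4
                  · exact h4
                  · exact absurd h4.2 (by omega)
          rw [hcomp, sg_comp_swap _ hne]
          ring
        · have hcomp : col hab.le E' (mv rot r σ) c = col hab.le E σ c := by
            funext i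
            have hi := i.2
            unfold col
            by_cases hx1 : (⟨ad b c i, ad_lt c.2 (i.2.le.trans hab.le)⟩ : Fin b) = sF
            · rw [hx1, vS', vS]
              have h3 : ad b c i = s := congrArg Fin.val hx1
              have h4 := i_of_s hc (by omega) h3
              have hi' : (i : ℕ) + 1 = n + 1 := by omega
              rw [hrot2 i hi', hp]
            · by_cases hx2 : (⟨ad b c i, ad_lt c.2 (i.2.le.trans hab.le)⟩ : Fin b) = tF
              · rw [hx2, vT', vT]
                have h3 : ad b c i = s + 1 := congrArg Fin.val hx2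
                have hi' : (i : ℕ) = 0 := by
                  rcases i_of_t hc (by omega) hs h3 with h4 | h4
                  · omega
                  · exact h4.1
                have hi0 : i = 0 := Fin.ext hi'
                rw [hi0, hp]
              · exact vO σ i _ hx1 hx2
          rw [hcomp, one_mul]
      unfold W
      rw [Finset.prod_congr rfl (fun c _ => hcol c), Finset.prod_mul_distrib,
        prod_dd hsb (fun d => if d + 1 < n + 1 then (-1 : ℤ) else 1),
        prod_neg_one (Nat.succ_pos n) hab]
      rfl
    · -- both weights vanish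
      set j : Fin (n + 1) := σ r pj.1 with hj
      have hj0 : (j : ℕ) ≠ 0 := by
        intro h
        apply hp
        have : j = 0 := Fin.ext h
        rw [← this, hj, Equiv.symm_apply_apply]
      have hj' := j.2
      have hcb : (if (j : ℕ) ≤ s + 1 then s + 1 - j else s + 1 + b - j) < b := by
        split_ifs <;> omega
      set c : Fin b := ⟨if (j : ℕ) ≤ s + 1 then s + 1 - j else s + 1 + b - j, hcb⟩ with hc
      set i : Fin (n + 1) := ⟨j - 1, by omega⟩ with hi
      have hij : i ≠ j := by
        intro h
        have := congrArg Fin.val h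
        simp only [hi] at this
        omega
      have hcv : (c : ℕ) = if (j : ℕ) ≤ s + 1 then s + 1 - j else s + 1 + b - j := rfl
      have had1 : ad b c j = s + 1 := by
        unfold ad
        rw [hcv]
        split_ifs <;> omega
      have had2 : ad b c i = s := by
        unfold ad
        rw [hcv]
        simp only [hi]
        split_ifs <;> omega
      have e1 : (⟨ad b c j, ad_lt c.2 (j.2.le.trans hab.le)⟩ : Fin b) = tF := Fin.ext had1
      have e2 : (⟨ad b c i, ad_lt c.2 (i.2.le.trans hab.le)⟩ : Fin b) = sF := Fin.ext had2
      have hroti : rot i = j := by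
        apply Fin.ext
        rw [hrot1 i (by simp only [hi]; omega)]
        simp only [hi]
        omega
      have z1 : W hab.le E σ = 0 := by
        unfold W
        apply Finset.prod_eq_zero (Finset.mem_univ c)
        apply sg_eq_zero hij
        unfold col
        rw [e1, e2, vS, vT, hj, Equiv.symm_apply_apply]
      have z2 : W hab.le E' (mv rot r σ) = 0 := by
        unfold W
        apply Finset.prod_eq_zero (Finset.mem_univ c)
        apply sg_eq_zero hij
        unfold col
        rw [e1, e2, vS', vT', hroti, hj, Equiv.symm_apply_apply]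
      rw [z1, z2, mul_zero]
  unfold T
  rw [← Equiv.sum_comp (mv rot r), Finset.mul_sum]
  apply Finset.sum_congr rfl
  intro σ _
  rw [key]
  rfl

end Vale.Agent.P181.H75
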