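import Vale.Agent.P181.H75.R1

set_option autoImplicit false

/-!
# P181, [R2]: the base configuration is forced
-/

namespace Vale.Agent.P181.H75

open Finset

variable {a k q b : ℕ}

lemma sg_comp_left (f : Fin a → Fin a) (π : Equiv.Perm (Fin a)) :
    sg (π ∘ f) = ((Equiv.Perm.sign π : ℤˣ) : ℤ) * sg f := by
  classical
  by_cases h : Function.Bijective f
  · have h' : Function.Bijective (π ∘ f) := π.bijective.comp h
    have h1 : Equiv.ofBijective (π ∘ f) h' = π * (Equiv.ofBijective f h) := by
      ext x
      rfl
    unfold sg
    rw [dif_pos h', dif_pos h, h1, map_mul, Units.val_mul]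
  · have h' : ¬ Function.Bijective (π ∘ f) := by
      intro h'
      apply h
      have h2 : f = π.symm ∘ (π ∘ f) := by
        funext x
        simp
      rw [h2]
      exact π.symm.bijective.comp h'
    unfold sg
    rw [dif_neg h', dif_neg h, mul_zero]

lemma bij_of_sg {f : Fin a → Fin a} (h : sg f ≠ 0) : Function.Bijective f := by
  by_contra h'
  apply h
  unfold sg
  rw [dif_neg h']

lemma sg_ne_zero {f : Fin a → Fin a} (h : Function.Injective f) : sg f ≠ 0 := by
  unfold sg
  rw [dif_pos (Finite.injective_iff_bijective.1 h)]
  exact Units.ne_zero _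

/-- The standard placement. -/
def E0 (a k q : ℕ) : Rl k a q ≃ Fin (q * a + k) :=
  (Equiv.sumCongr (Equiv.refl (Fin k)) ((Equiv.prodComm (Fin a) (Fin q)).trans
    finProdFinEquiv)).trans ((Equiv.sumComm _ _).trans finSumFinEquiv)

lemma E0_inl (r : Fin k) : ((E0 a k q (Sum.inl r) : Fin (q * a + k)) : ℕ) = q * a + r := by
  simp [E0]

lemma E0_inr (pj : Fin a × Fin q) :
    ((E0 a k q (Sum.inr pj) : Fin (q * a + k)) : ℕ) = pj.1 + a * pj.2 := by
  simp [E0, finProdFinEquiv]

def rv (a k : ℕ) : Fin k → Equiv.Perm (Fin a) := fun _ => Fin.revPerm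

lemma val0_kept (x : Fin (q * a + k)) (i : Fin a) (hx : (x : ℕ) < q * a) :
    ((val (E0 a k q) (rv a k) x i : Fin a) : ℕ) = (x : ℕ) % a := by
  unfold val
  rcases h : (E0 a k q).symm x with r | pj
  · exfalso
    have h1 : x = E0 a k q (Sum.inl r) := by rw [← h, Equiv.apply_symm_apply]
    have h2 := E0_inl (a := a) (q := q) r
    rw [← h1] at h2
    omega
  · have h1 : x = E0 a k q (Sum.inr pj) := by rw [← h, Equiv.apply_symm_apply]
    have h2 := E0_inr (k := k) pj
    rw [← h1] at h2
    simp only [Sum.elim_inr]
    rw [h2, Nat.add_mul_mod_self_left, Nat.mod_eq_of_lt pj.1.2]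

lemma val0_dis (x : Fin (q * a + k)) (i : Fin a) (hx : q * a ≤ (x : ℕ)) :
    ((val (E0 a k q) (rv a k) x i : Fin a) : ℕ) = a - 1 - i := by
  unfold val
  rcases h : (E0 a k q).symm x with r | pj
  · simp only [Sum.elim_inl, rv, Fin.revPerm_symm, Fin.revPerm_apply, Fin.val_rev]
    omega
  · exfalso
    have h1 : x = E0 a k q (Sum.inr pj) := by rw [← h, Equiv.apply_symm_apply]
    have h2 := E0_inr (k := k) pj
    rw [← h1] at h2
    have h3 := pj.1.2
    have h4 := pj.2.2
    have h5 : a * (pj.2 : ℕ) + a ≤ q * a := by
      calc a * (pj.2 : ℕ) + a = (pj.2 + 1) * a := by ring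
        _ ≤ q * a := Nat.mul_le_mul_right a h4
    omega

/-- The columns of the standard placement are injective. -/
lemma col0_inj (ha : 0 < a) (hq : 0 < q) (hab : a ≤ q * a + k) (c : Fin (q * a + k)) :
    Function.Injective (col hab (E0 a k q) (rv a k) c) := by
  have hqa : a ≤ q * a := Nat.le_mul_of_pos_left a hq
  have main : ∀ i j : Fin a, (i : ℕ) < j →
      col hab (E0 a k q) (rv a k) c i ≠ col hab (E0 a k q) (rv a k) c j := by
    intro i j hij h
    have hc := c.2
    have hi := i.2
    have hj := j.2
    have hv := congrArg Fin.val h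
    unfold col at hv
    by_cases hx : ad (q * a + k) c i < q * a
    · rw [val0_kept _ _ hx] at hv
      by_cases hy : ad (q * a + k) c j < q * a
      · rw [val0_kept _ _ hy] at hv
        simp only at hv
        -- both kept
        by_cases hw : (c : ℕ) + j < q * a + k
        · have e1 : ad (q * a + k) c i = c + i := by
            unfold ad
            rw [if_pos (by omega)]
          have e2 : ad (q * a + k) c j = c + j := by
            unfold ad
            rw [if_pos hw]
          rw [e1, e2] at hv
          have h3 : a ∣ (c + j) - (c + i) := (Nat.modEq_iff_dvd' (by omega)).1 hv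
          have h4 := Nat.le_of_dvd (by omega) h3
          omega
        · by_cases hw' : (c : ℕ) + i < q * a + k
          · have e1 : ad (q * a + k) c i = c + i := by
              unfold ad
              rw [if_pos hw']
            have e2 : ad (q * a + k) c j = c + j - (q * a + k) := by
              unfold ad
              rw [if_neg hw]
            rw [e1, e2] at hv
            rw [e1] at hx
            have h3 : a ∣ (c + i) - (c + j - (q * a + k)) :=
              (Nat.modEq_iff_dvd' (by omega)).1 hv.symm
            have h5 : (c + i : ℕ) - (c + j - (q * a + k)) + (j - i - k) = q * a := by omega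
            have h6 : a ∣ (j : ℕ) - i - k := by
              have h7 : a ∣ q * a := Dvd.intro_left q rfl
              rw [← h5] at h7
              exact (Nat.dvd_add_right h3).1 h7
            have h4 := Nat.le_of_dvd (by omega) h6
            omega
          · have e1 : ad (q * a + k) c i = c + i - (q * a + k) := by
              unfold ad
              rw [if_neg hw']
            have e2 : ad (q * a + k) c j = c + j - (q * a + k) := by
              unfold ad
              rw [if_neg hw]
            rw [e1, e2] at hv
            have h3 : a ∣ (c + j - (q * a + k)) - (c + i - (q * a + k)) :=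
              (Nat.modEq_iff_dvd' (by omega)).1 hv
            have h4 := Nat.le_of_dvd (by omega) h3
            omega
      · rw [val0_dis _ _ (by simpa using hy)] at hv
        simp only at hv
        have hw : (c : ℕ) + j < q * a + k := by
          by_contra hw
          unfold ad at hy
          rw [if_neg hw] at hy
          omega
        have e1 : ad (q * a + k) c i = c + i := by
          unfold ad
          rw [if_pos (by omega)]
        have e2 : ad (q * a + k) c j = c + j := by
          unfold ad
          rw [if_pos hw]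
        rw [e1] at hv hx
        rw [e2] at hy
        obtain ⟨q', rfl⟩ : ∃ q', q = q' + 1 := ⟨q - 1, by omega⟩
        have h5 : (q' + 1) * a = a * q' + a := by ring
        obtain ⟨t, ht⟩ : ∃ t, (c : ℕ) + i = t + a * q' := ⟨c + i - a * q', by omega⟩
        rw [ht, Nat.add_mul_mod_self_left, Nat.mod_eq_of_lt (by omega)] at hv
        omega
    · rw [val0_dis _ _ (by simpa using hx)] at hv
      by_cases hy : ad (q * a + k) c j < q * a
      · rw [val0_kept _ _ hy] at hv
        simp only at hv
        have hw' : (c : ℕ) + i < q * a + k := by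
          by_contra hw
          unfold ad at hx
          rw [if_neg hw] at hx
          omega
        have e1 : ad (q * a + k) c i = c + i := by
          unfold ad
          rw [if_pos hw']
        rw [e1] at hx
        have hw : ¬ (c : ℕ) + j < q * a + k := by
          intro hw
          unfold ad at hy
          rw [if_pos hw] at hy
          omega
        have e2 : ad (q * a + k) c j = c + j - (q * a + k) := by
          unfold ad
          rw [if_neg hw]
        rw [e2, Nat.mod_eq_of_lt (by omega)] at hv
        omega
      · rw [val0_dis _ _ (by simpa using hy)] at hv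
        omega
  intro i j h
  rcases lt_trichotomy (i : ℕ) j with h1 | h1 | h1
  · exact absurd h (main i j h1)
  · exact Fin.ext h1
  · exact absurd h.symm (main j i h1)

/-- A placement with dissolved set `K₀` and injective columns is the standard one up to a
permutation of the slots. -/
lemma forced (ha : 0 < a) (hq : 0 < q) (hab : a ≤ q * a + k)
    (E : Rl k a q ≃ Fin (q * a + k)) (σ : Fin k → Equiv.Perm (Fin a))
    (hE : ds E = univ.filter (fun s : Fin (q * a + k) => q * a ≤ (s : ℕ)))
    (hb : ∀ c, Function.Bijective (col hab E σ c)) :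
    ∃ π : Equiv.Perm (Fin a), ∀ c, col hab E σ c = π ∘ col hab (E0 a k q) (rv a k) c := by
  classical
  have hqa : a ≤ q * a := Nat.le_mul_of_pos_left a hq
  -- kept positions
  have hk1 : ∀ x : Fin (q * a + k), (x : ℕ) < q * a → ∃ pj, E.symm x = Sum.inr pj := by
    intro x hx
    rcases h : E.symm x with r | pj
    · exfalso
      have h1 : x ∈ ds E := by
        unfold ds
        rw [mem_image]
        exact ⟨r, mem_univ _, by rw [← h, Equiv.apply_symm_apply]⟩
      rw [hE, mem_filter] at h1
      omega
    · exact ⟨pj, rfl⟩
  have hk2 : ∀ x : Fin (q * a + k), q * a ≤ (x : ℕ) → ∃ r, E.symm x = Sum.inl r := by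
    intro x hx
    have h1 : x ∈ ds E := by
      rw [hE, mem_filter]
      exact ⟨mem_univ _, hx⟩
    unfold ds at h1
    rw [mem_image] at h1
    obtain ⟨r, _, hr⟩ := h1
    exact ⟨r, by rw [← hr, Equiv.symm_apply_apply]⟩
  -- the value function
  let v : ℕ → Fin a → Fin a := fun x i =>
    if hx : x < q * a + k then val E σ ⟨x, hx⟩ i else i
  have hcol : ∀ (c : Fin (q * a + k)) (i : Fin a), col hab E σ c i = v (ad (q * a + k) c i) i := by
    intro c i
    simp only [v]
    rw [dif_pos (ad_lt c.2 (i.2.le.trans hab))]
    rfl
  have hkept : ∀ x, x < q * a → ∀ i j, v x i = v x j := by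
    intro x hx i j
    have hx' : x < q * a + k := by omega
    simp only [v]
    rw [dif_pos hx', dif_pos hx']
    obtain ⟨pj, h⟩ := hk1 ⟨x, hx'⟩ hx
    unfold val
    rw [h]
    rfl
  have hdis : ∀ x, q * a ≤ x → x < q * a + k → Function.Injective (v x) := by
    intro x hx hx' i j h
    simp only [v] at h
    rw [dif_pos hx', dif_pos hx'] at h
    obtain ⟨r, hr⟩ := hk2 ⟨x, hx'⟩ hx
    unfold val at h
    rw [hr] at h
    exact (σ r).symm.injective h
  -- columns without wrap around
  have hcolv : ∀ (c : ℕ) (hc : c < q * a + k) (i : Fin a), c + i < q * a + k →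
      col hab E σ ⟨c, hc⟩ i = v (c + i) i := by
    intro c hc i h
    rw [hcol]
    unfold ad
    rw [if_pos h]
  have i0 : Fin a := ⟨0, ha⟩
  -- periodicity
  have hper : ∀ x, x + a < q * a → ∀ i, v (x + a) i = v x i := by
    intro x hx i
    have hc1 : x + 1 < q * a + k := by omega
    have hc0 : x < q * a + k := by omega
    obtain ⟨j, hj⟩ := (hb ⟨x + 1, hc1⟩).2 (v x i)
    have hj' := j.2
    rw [hcolv (x + 1) hc1 j (by omega)] at hj
    by_cases hja : (j : ℕ) + 1 < a
    · exfalso
      have h1 : col hab E σ ⟨x, hc0⟩ ⟨j + 1, hja⟩ = col hab E σ ⟨x, hc0⟩ ⟨0, ha⟩ := by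
        rw [hcolv x hc0 ⟨j + 1, hja⟩ (by simp only; omega), hcolv x hc0 ⟨0, ha⟩ (by simp only; omega)]
        simp only [add_zero]
        rw [hkept x (by omega) ⟨0, ha⟩ i, ← hj]
        have e : x + ((j : ℕ) + 1) = x + 1 + j := by omega
        rw [e]
        exact hkept _ (by omega) _ _
      have h2 := congrArg Fin.val ((hb ⟨x, hc0⟩).1 h1)
      simp only at h2
      omega
    · have e : x + 1 + (j : ℕ) = x + a := by omega
      rw [e] at hj
      rw [← hj]
      exact hkept _ hx _ _
  have hmod : ∀ x, x < q * a → ∀ i, v x i = v (x % a) i := by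
    intro x
    induction x using Nat.strong_induction_on with
    | _ x ih =>
      intro hx i
      by_cases hxa : x < a
      · rw [Nat.mod_eq_of_lt hxa]
      · obtain ⟨y, rfl⟩ : ∃ y, x = y + a := ⟨x - a, by omega⟩
        rw [hper y hx, ih y (by omega) (by omega), Nat.add_mod_right]
  -- the permutation
  have hc00 : 0 < q * a + k := by omega
  let π : Equiv.Perm (Fin a) := Equiv.ofBijective _ (hb ⟨0, hc00⟩)
  have hπ : ∀ u : Fin a, ∀ i, π u = v u i := by
    intro u i
    have hu := u.2
    show col hab E σ ⟨0, hc00⟩ u = v u i
    rw [hcolv 0 hc00 u (by omega), Nat.zero_add]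
    exact hkept _ (by omega) _ _
  -- the dissolved particles
  have hfor : ∀ r, r < k → ∀ u (hu : u < a),
      v (q * a + r) ⟨a - 1 - u, by omega⟩ = π ⟨u, hu⟩ := by
    intro r
    induction r using Nat.strong_induction_on with
    | _ r ihr =>
      intro hr u
      induction u using Nat.strong_induction_on with
      | _ u ihu =>
        intro hu
        obtain ⟨w, hw⟩ := π.surjective (v (q * a + r) ⟨a - 1 - u, by omega⟩)
        have hw' := w.2
        rw [← hw]
        congr 1
        apply Fin.ext
        show (w : ℕ) = u
        by_contra hne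
        rcases lt_or_gt_of_ne hne with hlt | hgt
        · -- smaller: taken by the same particle
          have h1 := ihu w hlt hw'
          have h2 : v (q * a + r) ⟨a - 1 - w, by omega⟩ =
              v (q * a + r) ⟨a - 1 - u, by omega⟩ := by
            rw [h1, ← hw]
          have h3 := congrArg Fin.val (hdis _ (by omega) (by omega) h2)
          simp only at h3
          omega
        · -- larger: taken in the same column
          obtain ⟨q', rfl⟩ : ∃ q', q = q' + 1 := ⟨q - 1, by omega⟩
          have h5 : (q' + 1) * a = a * q' + a := by ring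
          have hc : a * q' + u + r + 1 < (q' + 1) * a + k := by omega
          have e0 : col hab E σ ⟨a * q' + u + r + 1, hc⟩ ⟨a - 1 - u, by omega⟩ = π w := by
            rw [hcolv _ hc ⟨a - 1 - u, by omega⟩ (by simp only; omega), hw]
            have e : a * q' + u + r + 1 + (a - 1 - u) = (q' + 1) * a + r := by omega
            simp only [e]
          by_cases hwr : (w : ℕ) - u ≤ r
          · have h1 := ihr (r - (w - u)) (by omega) (by omega) w hw'
            have e1 : col hab E σ ⟨a * q' + u + r + 1, hc⟩ ⟨a - 1 - w, by omega⟩ = π w := by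
              rw [hcolv _ hc ⟨a - 1 - w, by omega⟩ (by simp only; omega)]
              have e : a * q' + u + r + 1 + (a - 1 - w) = (q' + 1) * a + (r - (w - u)) := by omega
              simp only [e]
              exact h1
            have h3 := congrArg Fin.val ((hb _).1 (e0.trans e1.symm))
            simp only at h3
            omega
          · have e1 : col hab E σ ⟨a * q' + u + r + 1, hc⟩ ⟨w - u - r - 1, by omega⟩ = π w := by
              rw [hcolv _ hc ⟨w - u - r - 1, by omega⟩ (by simp only; omega)]
              have e : a * q' + u + r + 1 + (w - u - r - 1) = w + a * q' := by omega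
              simp only [e]
              rw [hmod _ (by omega), Nat.add_mul_mod_self_left, Nat.mod_eq_of_lt hw']
              exact (hπ w _).symm
            have h3 := congrArg Fin.val ((hb _).1 (e0.trans e1.symm))
            simp only at h3
            omega
  refine ⟨π, fun c => ?_⟩
  funext i
  rw [hcol, Function.comp_apply]
  have hi := i.2
  have hlt : ad (q * a + k) c i < q * a + k := ad_lt c.2 (i.2.le.trans hab)
  by_cases hx : ad (q * a + k) c i < q * a
  · have h0 := val0_kept (a := a) (k := k) (q := q) ⟨ad (q * a + k) c i, hlt⟩ i hx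
    rw [hmod _ hx]
    have hm : ad (q * a + k) c i % a < a := Nat.mod_lt _ ha
    have h1 : col hab (E0 a k q) (rv a k) c i = ⟨ad (q * a + k) c i % a, hm⟩ := Fin.ext h0
    rw [h1]
    exact (hπ ⟨ad (q * a + k) c i % a, hm⟩ i).symm
  · rw [not_lt] at hx
    have h0 := val0_dis (a := a) (k := k) (q := q) ⟨ad (q * a + k) c i, hlt⟩ i hx
    have h1 : col hab (E0 a k q) (rv a k) c i = ⟨a - 1 - i, by omega⟩ := Fin.ext h0
    rw [h1]
    obtain ⟨r, hr⟩ : ∃ r, ad (q * a + k) c i = q * a + r := ⟨ad (q * a + k) c i - q * a, by omega⟩
    rw [hr, ← hfor r (by omega) (a - 1 - i) (by omega)]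
    congr 1
    apply Fin.ext
    simp only
    omega

theorem r2 : R2 := by
  classical
  intro a k q b hab ha hq hb hev
  subst hb
  set K0 := univ.filter (fun s : Fin (q * a + k) => q * a ≤ (s : ℕ)) with hK0
  set W0 := W hab (E0 a k q) (rv a k) with hW0
  have hW0ne : W0 ≠ 0 := by
    rw [hW0]
    unfold W
    rw [Finset.prod_ne_zero_iff]
    intro c _
    exact sg_ne_zero (col0_inj ha hq hab c)
  have hds0 : ds (E0 a k q) = K0 := by
    ext x
    rw [hK0, mem_filter]
    unfold ds
    rw [mem_image]
    constructor
    · rintro ⟨r, _, hr⟩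
      refine ⟨mem_univ _, ?_⟩
      rw [← hr, E0_inl]
      omega
    · rintro ⟨_, hx⟩
      have hx' := x.2
      refine ⟨⟨x - q * a, by omega⟩, mem_univ _, ?_⟩
      apply Fin.ext
      rw [E0_inl]
      simp only
      omega
  have hval : ∀ (E : Rl k a q ≃ Fin (q * a + k)) (σ : Fin k → Equiv.Perm (Fin a)), ds E = K0 →
      W hab E σ = W0 ∨ W hab E σ = 0 := by
    intro E σ hE
    by_cases h : W hab E σ = 0
    · exact Or.inr h
    · left
      have hbij : ∀ c, Function.Bijective (col hab E σ c) := by
        intro c
        apply bij_of_sg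
        have h' : ∏ c, sg (col hab E σ c) ≠ 0 := h
        exact (Finset.prod_ne_zero_iff.1 h') c (mem_univ c)
      obtain ⟨π, hπ⟩ := forced ha hq hab E σ hE hbij
      rw [hW0]
      unfold W
      rw [Finset.prod_congr rfl (fun c _ => by rw [hπ c, sg_comp_left]), Finset.prod_mul_distrib,
        Finset.prod_const, Finset.card_univ, Fintype.card_fin]
      have h1 : (((Equiv.Perm.sign π : ℤˣ) : ℤ)) ^ (q * a + k) = 1 := by
        obtain ⟨t, ht⟩ := hev
        rw [ht, ← two_mul, pow_mul]
        have : (((Equiv.Perm.sign π : ℤˣ) : ℤ)) ^ 2 = 1 := by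
          rcases Int.units_eq_one_or (Equiv.Perm.sign π) with h | h <;> rw [h] <;> simp
        rw [this, one_pow]
      rw [h1, one_mul]
  -- positivity
  have hpos : 0 < W0 * TK k q hab K0 := by
    unfold TK T
    rw [Finset.mul_sum]
    have hnn : ∀ E ∈ univ.filter (fun E : Rl k a q ≃ Fin (q * a + k) => ds E = K0),
        0 ≤ W0 * ∑ σ : Fin k → Equiv.Perm (Fin a), W hab E σ := by
      intro E hE
      rw [mem_filter] at hE
      rw [Finset.mul_sum]
      apply Finset.sum_nonneg
      intro σ _
      rcases hval E σ hE.2 with h | h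
      · rw [h]
        exact mul_self_nonneg _
      · rw [h, mul_zero]
    apply Finset.sum_pos' hnn
    refine ⟨E0 a k q, by rw [mem_filter]; exact ⟨mem_univ _, hds0⟩, ?_⟩
    rw [Finset.mul_sum]
    apply Finset.sum_pos'
    · intro σ _
      rcases hval (E0 a k q) σ hds0 with h | h
      · rw [h]
        exact mul_self_nonneg _
      · rw [h, mul_zero]
    · exact ⟨rv a k, mem_univ _, mul_self_pos.2 hW0ne⟩
  intro h
  rw [h, mul_zero] at hpos
  exact lt_irrefl _ hpos

end Vale.Agent.P181.H75
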