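import Mathlib

set_option autoImplicit false

/-!
# P181: the rectangle under the hybrid maps, circulant configuration

Particles and columns are indexed by `Fin b`, `b = q a + k`; letter `i` of particle `s` belongs to
column `s - i` (mod `b`); so column `c` carries the letters `(c + i, i)`, `i < a`.
-/

namespace Vale.Agent.P181.H75

open Finset

/-- Addition modulo `b` (for `c < b`, `i ≤ b`). -/
def ad (b c i : ℕ) : ℕ := if c + i < b then c + i else c + i - b

lemma ad_lt {b c i : ℕ} (hc : c < b) (hi : i ≤ b) : ad b c i < b := by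
  unfold ad
  split_ifs <;> omega

/-- The roles: `k` dissolved ones, `q` kept ones in every slot. -/
abbrev Rl (k a q : ℕ) := Fin k ⊕ (Fin a × Fin q)

section

variable {a k q b : ℕ}

/-- The slot of letter `i` of particle `s`. -/
def val (E : Rl k a q ≃ Fin b) (σ : Fin k → Equiv.Perm (Fin a)) (s : Fin b) (i : Fin a) : Fin a :=
  Sum.elim (fun r => (σ r).symm i) (fun pj => pj.1) (E.symm s)

/-- The slots of the letters of column `c`. -/
def col (hab : a ≤ b) (E : Rl k a q ≃ Fin b) (σ : Fin k → Equiv.Perm (Fin a)) (c : Fin b)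
    (i : Fin a) : Fin a :=
  val E σ ⟨ad b c i, ad_lt c.2 (i.2.le.trans hab)⟩ i

open Classical in
/-- The sign of a self map, zero if it is not bijective. -/
noncomputable def sg (f : Fin a → Fin a) : ℤ :=
  if h : Function.Bijective f then ((Equiv.Perm.sign (Equiv.ofBijective f h) : ℤˣ) : ℤ) else 0

/-- The signed weight of a placement. -/
noncomputable def W (hab : a ≤ b) (E : Rl k a q ≃ Fin b) (σ : Fin k → Equiv.Perm (Fin a)) : ℤ :=
  ∏ c : Fin b, sg (col hab E σ c)

noncomputable def T (hab : a ≤ b) (E : Rl k a q ≃ Fin b) : ℤ :=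
  ∑ σ : Fin k → Equiv.Perm (Fin a), W hab E σ

/-- The dissolved particles. -/
def ds (E : Rl k a q ≃ Fin b) : Finset (Fin b) := univ.image (fun r : Fin k => E (Sum.inl r))

noncomputable def TK (k q : ℕ) (hab : a ≤ b) (K : Finset (Fin b)) : ℤ :=
  ∑ E ∈ univ.filter (fun E : Rl k a q ≃ Fin b => ds E = K), T hab E

end

/-- [R1] the swap of a kept and a dissolved neighbour. -/
def R1 : Prop := ∀ (a k q b : ℕ) (hab : a < b) (_ : 0 < a) (s : ℕ) (hs : s + 1 < b)
  (E : Rl k a q ≃ Fin b) (r : Fin k) (pj : Fin a × Fin q),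
  E.symm ⟨s, by omega⟩ = Sum.inr pj → E.symm ⟨s + 1, hs⟩ = Sum.inl r →
  T hab.le (E.trans (Equiv.swap (⟨s, by omega⟩ : Fin b) ⟨s + 1, hs⟩)) =
    (-1) ^ (a - 1) * T hab.le E

/-- [R2] the base: the last `k` particles are dissolved. -/
def R2 : Prop := ∀ (a k q b : ℕ) (hab : a ≤ b), 0 < a → 0 < q → b = q * a + k → Even b →
  TK k q hab (univ.filter (fun s : Fin b => q * a ≤ (s : ℕ))) ≠ 0

/-- [R3] the signed number of `k`-subsets. -/
def R3 : Prop := ∀ (a k b : ℕ), 0 < a → k ≤ b → Even b → (Odd a ∨ Even k) →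
  ∑ K ∈ powersetCard k (univ : Finset (Fin b)), ((-1 : ℤ) ^ (a - 1)) ^ (∑ s ∈ K, (s : ℕ)) ≠ 0

/-- [R4] the total. -/
def R4 : Prop := ∀ (a k q b : ℕ) (hab : a ≤ b), 0 < a → 0 < q → b = q * a + k → Even b →
  ∑ E : Rl k a q ≃ Fin b, T hab E ≠ 0

end Vale.Agent.P181.H75
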